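import Vale.Agent.P286.H353.DGCrit

/-!
# Full DG subcategories, and all complexes
-/

namespace Vale.Agent.P286.H353

open CategoryTheory CochainComplex.HomComplex
open Vale.Agent.P286.St

noncomputable section

universe u v u₁ v₁ u₂ v₂ u₃ v₃

/-- The full DG subcategory of the objects with the property `P`. -/
def DGC.full (C : DGC.{u, v}) (P : C.Obj → Prop) : DGC.{u, v} where
  Obj := {X : C.Obj // P X}
  Hom X Y n := C.Hom X.1 Y.1 n
  grp X Y n := C.grp X.1 Y.1 n
  mod X Y n := C.mod X.1 Y.1 n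
  one X := C.one X.1
  comp h f g := C.comp h f g
  d m n f := C.d m n f
  one_comp f := C.one_comp f
  comp_one f := C.comp_one f
  assoc f g h := C.assoc f g h
  d_one X := C.d_one X.1
  d_comp f g hf hg := C.d_comp f g hf hg

section

variable {C : DGC.{u₁, v₁}} {D : DGC.{u₂, v₂}} {P : C.Obj → Prop} {Q : D.Obj → Prop}

/-- The inclusion. -/
def DGF.incl (C : DGC.{u₁, v₁}) (P : C.Obj → Prop) : DGF (C.full P) C where
  obj X := X.1
  map _ := LinearMap.id
  map_one _ := rfl
  map_comp _ _ _ := rfl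
  map_d _ _ _ := rfl

/-- A DG functor with values in a full subcategory. -/
def DGF.lift (Φ : DGF C D) (h : ∀ X, Q (Φ.obj X)) : DGF C (D.full Q) where
  obj X := ⟨Φ.obj X, h X⟩
  map n := Φ.map n
  map_one X := Φ.map_one X
  map_comp h α β := Φ.map_comp h α β
  map_d m n α := Φ.map_d m n α

/-- The restriction to full subcategories. -/
def DGF.restr (Φ : DGF C D) (h : ∀ X, P X → Q (Φ.obj X)) : DGF (C.full P) (D.full Q) :=
  ((DGF.incl C P).comp Φ).lift (fun X => h X.1 X.2)

/-- The underlying closed cochain of a morphism in a full subcategory. -/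
def zup {X Y : Z0 (C.full P)} (a : X ⟶ Y) :
    zo (C := C) (ob X).1 ⟶ zo (C := C) (ob Y).1 :=
  zmk (C := C) (zf (C := C.full P) a) (zf_cl (C := C.full P) a)

/-- The morphism in a full subcategory. -/
def zdn {X Y : C.Obj} (hX : P X) (hY : P Y) (a : zo (C := C) X ⟶ zo (C := C) Y) :
    zo (C := C.full P) ⟨X, hX⟩ ⟶ zo (C := C.full P) ⟨Y, hY⟩ :=
  zmk (C := C.full P) (zf (C := C) a) (zf_cl (C := C) a)

variable {E : Type u₃} [Category.{v₃} E]

/-- A functor with values in a full subcategory. -/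
def zlift (F : E ⥤ Z0 C) (h : ∀ X, P (ob (F.obj X))) : E ⥤ Z0 (C.full P) where
  obj X := zo (C := C.full P) ⟨ob (F.obj X), h X⟩
  map {X Y} a := zdn (h X) (h Y) (F.map a)
  map_id X := z_ext (congrArg (zf (C := C)) (F.map_id X))
  map_comp a b := z_ext (congrArg (zf (C := C)) (F.map_comp a b))

/-- A natural transformation of functors with values in a full subcategory. -/
def zliftT {F G : E ⥤ Z0 C} (hF : ∀ X, P (ob (F.obj X))) (hG : ∀ X, P (ob (G.obj X)))
    (η : F ⟶ G) : zlift F hF ⟶ zlift G hG where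
  app X := zdn (hF X) (hG X) (η.app X)
  naturality _ _ a := z_ext (congrArg (zf (C := C)) (η.naturality a))

end

variable {T : TSite}

/-- The DG category of all complexes. -/
def cxc (T : TSite) : DGC.{1, 1} where
  Obj := CochainComplex (TD T) ℤ
  Hom K L n := Cochain K L n
  one K := Cochain.ofHom (𝟙 K)
  comp h α β := α.comp β h
  d m n α := δ m n α
  one_comp f := Cochain.id_comp f
  comp_one f := Cochain.comp_id f
  assoc f g h := Cochain.comp_assoc f g h (zero_add 0) (zero_add 0) (by omega)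
  d_one _ := δ_ofHom _
  d_comp f g hf hg := by
    rw [δ_comp f g (zero_add 0) 1 1 1 (zero_add 1) (zero_add 1) (zero_add 1), hf, hg,
      Cochain.comp_zero, Cochain.zero_comp, smul_zero, add_zero]

/-- The inclusion of the cartesian complexes. -/
def inc (T : TSite) : DGF (dgc T) (cxc T) where
  obj K := cx K
  map _ := LinearMap.id
  map_one _ := rfl
  map_comp _ _ _ := rfl
  map_d _ _ _ := rfl

/-- The cartesian complex defined by a complex. -/
def mkC (K : CochainComplex (TD T) ℤ) (h : Cx.Cart (T := T) K) : CCx T := ⟨K, h⟩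

/-- A DG functor with cartesian values. -/
def toC {C : DGC.{u₁, v₁}} (Φ : DGF C (cxc T)) (h : ∀ X, Cx.Cart (T := T) (Φ.obj X)) :
    DGF C (dgc T) where
  obj X := mkC (Φ.obj X) (h X)
  map n := Φ.map n
  map_one X := Φ.map_one X
  map_comp h α β := Φ.map_comp h α β
  map_d m n α := Φ.map_d m n α

/-- The object of the category of closed morphisms. -/
def zcx (X : Z0 (cxc T)) : CochainComplex (TD T) ℤ := X

/-- The morphism of complexes underlying a closed morphism of degree `0`. -/
def zhom {K L : Z0 (cxc T)} (a : K ⟶ L) : zcx K ⟶ zcx L :=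
  Cocycle.homOf (Cocycle.mk (zf a) 1 (zero_add 1) (zf_cl a))

theorem ofHom_zhom {K L : Z0 (cxc T)} (a : K ⟶ L) : Cochain.ofHom (zhom a) = zf a :=
  Cocycle.cochain_ofHom_homOf_eq_coe _

/-- The quasi-isomorphisms. -/
def xqis (T : TSite) : MorphismProperty (Z0 (cxc T)) := fun K L a =>
  Cx.qis T (X := zcx K) (Y := zcx L) (zhom a)

section

variable {E : Type u₃} [Category.{v₃} E]

/-- A morphism of cartesian complexes defined by a morphism of complexes. -/
def cdn {K L : Z0 (cxc T)} (hK : Cx.Cart (T := T) (zcx K)) (hL : Cx.Cart (T := T) (zcx L))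
    (a : K ⟶ L) : cz (mkC (zcx K) hK) ⟶ cz (mkC (zcx L) hL) :=
  zmk (C := dgc T) (X := cz (mkC (zcx K) hK)) (Y := cz (mkC (zcx L) hL))
    (zf (C := cxc T) a) (zf_cl (C := cxc T) a)

/-- A functor with cartesian values. -/
def clift (F : E ⥤ Z0 (cxc T)) (h : ∀ X, Cx.Cart (T := T) (zcx (F.obj X))) :
    E ⥤ Z0 (dgc T) where
  obj X := cz (mkC (zcx (F.obj X)) (h X))
  map {X Y} a := cdn (h X) (h Y) (F.map a)
  map_id X := z_ext (congrArg (zf (C := cxc T)) (F.map_id X))
  map_comp a b := z_ext (congrArg (zf (C := cxc T)) (F.map_comp a b))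

/-- A natural transformation of functors with cartesian values. -/
def cliftT {F G : E ⥤ Z0 (cxc T)} (hF : ∀ X, Cx.Cart (T := T) (zcx (F.obj X)))
    (hG : ∀ X, Cx.Cart (T := T) (zcx (G.obj X))) (η : F ⟶ G) : clift F hF ⟶ clift G hG where
  app X := cdn (hF X) (hG X) (η.app X)
  naturality _ _ a := z_ext (congrArg (zf (C := cxc T)) (η.naturality a))

theorem zqis_cdn {K L : Z0 (cxc T)} (hK : Cx.Cart (T := T) (zcx K))
    (hL : Cx.Cart (T := T) (zcx L)) {a : K ⟶ L} (h : xqis T a) : zqis T (cdn hK hL a) := h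

theorem natW_clift {F G : E ⥤ Z0 (cxc T)} (hF : ∀ X, Cx.Cart (T := T) (zcx (F.obj X)))
    (hG : ∀ X, Cx.Cart (T := T) (zcx (G.obj X))) (h : NatW (xqis T) F G) :
    NatW (zqis T) (clift F hF) (clift G hG) := by
  obtain ⟨η, h⟩ := h
  exact ⟨cliftT hF hG η, fun X => zqis_cdn _ _ (h X)⟩

end

end

end Vale.Agent.P286.H353
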