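import Vale.Agent.P286.H847.Gtd
import Vale.Agent.P286.H353.DGFull

/-!
# The DG category of families of graded differential spaces
-/

namespace Vale.Agent.P286.H353

open CategoryTheory CochainComplex.HomComplex
open Vale.Agent.P286.St Vale.Agent.P286.H847

noncomputable section

variable {T : TSite}

/-- The differential of cochains. -/
def gdl {F F' : GTD T} (m n : ℤ) (z : GTD.Coch F F' m) : GTD.Coch F F' n :=
  if h : m + 1 = n then z.dl h else 0

theorem gdl_eq {F F' : GTD T} {m n : ℤ} (h : m + 1 = n) (z : GTD.Coch F F' m) :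
    gdl m n z = z.dl h := dif_pos h

theorem gdl_ne {F F' : GTD T} {m n : ℤ} (h : ¬ m + 1 = n) (z : GTD.Coch F F' m) :
    gdl m n z = 0 := dif_neg h

theorem gdl_f {F F' : GTD T} {m n : ℤ} (h : m + 1 = n) (z : GTD.Coch F F' m) (X : T.C)
    (x : (F.F X).V) :
    (gdl m n z).f X x = (F'.F X).d (z.f X x) - (m.negOnePow : ℤ) • z.f X ((F.F X).d x) := by
  rw [gdl_eq h]
  rfl

/-- The DG category of families of graded differential spaces. -/
def gtc (T : TSite) : DGC.{1, 1} where
  Obj := GTD T
  Hom F F' n := GTD.Coch F F' n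
  one F := GTD.Coch.one F
  comp h z w := z.cmp w h
  d m n z := gdl m n z
  one_comp f := GTD.Coch.ext' fun _ _ => rfl
  comp_one f := GTD.Coch.ext' fun _ _ => rfl
  assoc f g h := GTD.Coch.ext' fun _ _ => rfl
  d_one F := GTD.Coch.ext' fun X x => by
    rw [gdl_f (zero_add 1)]
    simp [GTD.Coch.one]
  d_comp {F F' F''} f g hf hg := GTD.Coch.ext' fun X x => by
    rw [gdl_f (zero_add 1)]
    have h1 := congrArg (fun z : GTD.Coch F F' 1 => z.f X x) hf
    have h2 := congrArg (fun z : GTD.Coch F' F'' 1 => z.f X (f.f X x)) hg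
    simp only [gdl_f (zero_add 1), GTD.Coch.zero_f, LinearMap.zero_apply] at h1 h2
    simp only [GTD.Coch.cmp, GTD.Coch.zero_f, LinearMap.zero_apply, LinearMap.comp_apply]
    rw [Int.negOnePow_zero, Units.val_one, one_smul, sub_eq_zero] at h1 h2 ⊢
    rw [← h1, h2]

end

end Vale.Agent.P286.H353
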