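import Vale.Agent.P286.H353.Crit

/-!
# DG categories and DG functors
-/

namespace Vale.Agent.P286.H353

open CategoryTheory CochainComplex.HomComplex
open Vale.Agent.P286.St

noncomputable section

universe u v u₁ v₁ u₂ v₂ u₃ v₃

set_option linter.checkUnivs false in
/-- A DG category (only the part of the axioms needed for the category of closed morphisms of
degree `0` is required). -/
structure DGC : Type (max (u + 1) (v + 1)) where
  Obj : Type u
  Hom : Obj → Obj → ℤ → Type v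
  [grp : ∀ X Y n, AddCommGroup (Hom X Y n)]
  [mod : ∀ X Y n, Module ℂ (Hom X Y n)]
  one : ∀ X, Hom X X 0
  comp : ∀ {X Y Z : Obj} {m n p : ℤ}, m + n = p → Hom X Y m → Hom Y Z n → Hom X Z p
  d : ∀ {X Y : Obj} (m n : ℤ), Hom X Y m → Hom X Y n
  one_comp : ∀ {X Y : Obj} (f : Hom X Y 0), comp (zero_add 0) (one X) f = f
  comp_one : ∀ {X Y : Obj} (f : Hom X Y 0), comp (zero_add 0) f (one Y) = f
  assoc : ∀ {X Y Z W : Obj} (f : Hom X Y 0) (g : Hom Y Z 0) (h : Hom Z W 0),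
    comp (zero_add 0) (comp (zero_add 0) f g) h = comp (zero_add 0) f (comp (zero_add 0) g h)
  d_one : ∀ X : Obj, d 0 1 (one X) = 0
  d_comp : ∀ {X Y Z : Obj} (f : Hom X Y 0) (g : Hom Y Z 0), d 0 1 f = 0 → d 0 1 g = 0 →
    d 0 1 (comp (zero_add 0) f g) = 0

attribute [instance] DGC.grp DGC.mod

/-- The closed morphisms of degree `0`. -/
@[ext]
structure DGC.ZHom (C : DGC.{u, v}) (X Y : C.Obj) : Type v where
  f : C.Hom X Y 0
  cl : C.d 0 1 f = 0

/-- The category of closed morphisms of degree `0`. -/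
def Z0 (C : DGC.{u, v}) : Type u := C.Obj

/-- The underlying object. -/
def ob {C : DGC.{u, v}} (X : Z0 C) : C.Obj := X

/-- The object defined by an object. -/
def zo {C : DGC.{u, v}} (X : C.Obj) : Z0 C := X

instance (C : DGC.{u, v}) : Category.{v} (Z0 C) where
  Hom X Y := C.ZHom (ob X) (ob Y)
  id X := ⟨C.one (ob X), C.d_one (ob X)⟩
  comp a b := ⟨C.comp (zero_add 0) a.f b.f, C.d_comp a.f b.f a.cl b.cl⟩
  id_comp a := DGC.ZHom.ext (C.one_comp a.f)
  comp_id a := DGC.ZHom.ext (C.comp_one a.f)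
  assoc a b c := DGC.ZHom.ext (C.assoc a.f b.f c.f)

/-- The cochain underlying a morphism. -/
def zf {C : DGC.{u, v}} {X Y : Z0 C} (a : X ⟶ Y) : C.Hom (ob X) (ob Y) 0 := DGC.ZHom.f a

/-- The morphism defined by a closed cochain of degree `0`. -/
def zmk {C : DGC.{u, v}} {X Y : Z0 C} (f : C.Hom (ob X) (ob Y) 0) (h : C.d 0 1 f = 0) : X ⟶ Y :=
  (⟨f, h⟩ : C.ZHom (ob X) (ob Y))

theorem zf_cl {C : DGC.{u, v}} {X Y : Z0 C} (a : X ⟶ Y) : C.d 0 1 (zf a) = 0 := DGC.ZHom.cl a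

theorem zf_zmk {C : DGC.{u, v}} {X Y : Z0 C} (f : C.Hom (ob X) (ob Y) 0) (h : C.d 0 1 f = 0) :
    zf (zmk f h) = f := rfl

theorem zf_id {C : DGC.{u, v}} (X : Z0 C) : zf (𝟙 X) = C.one (ob X) := rfl

theorem zf_comp {C : DGC.{u, v}} {X Y Z : Z0 C} (a : X ⟶ Y) (b : Y ⟶ Z) :
    zf (a ≫ b) = C.comp (zero_add 0) (zf a) (zf b) := rfl

theorem z_ext {C : DGC.{u, v}} {X Y : Z0 C} {a b : X ⟶ Y} (h : zf a = zf b) : a = b :=
  DGC.ZHom.ext h

/-- A DG functor. -/
structure DGF (C : DGC.{u₁, v₁}) (D : DGC.{u₂, v₂}) where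
  obj : C.Obj → D.Obj
  map : ∀ {X Y : C.Obj} (n : ℤ), C.Hom X Y n →ₗ[ℂ] D.Hom (obj X) (obj Y) n
  map_one : ∀ X : C.Obj, map 0 (C.one X) = D.one (obj X)
  map_comp : ∀ {X Y Z : C.Obj} {m n p : ℤ} (h : m + n = p) (α : C.Hom X Y m) (β : C.Hom Y Z n),
    map p (C.comp h α β) = D.comp h (map m α) (map n β)
  map_d : ∀ {X Y : C.Obj} (m n : ℤ) (α : C.Hom X Y m), map n (C.d m n α) = D.d m n (map m α)

namespace DGF

variable {C : DGC.{u₁, v₁}} {D : DGC.{u₂, v₂}} {E : DGC.{u₃, v₃}}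

/-- The value on an object. -/
def zobj (Φ : DGF C D) (X : Z0 C) : Z0 D := zo (Φ.obj (ob X))

theorem map_cl (Φ : DGF C D) {X Y : C.Obj} (a : C.Hom X Y 0) (h : C.d 0 1 a = 0) :
    D.d 0 1 (Φ.map 0 a) = 0 := by
  rw [← Φ.map_d, h, map_zero]

/-- The functor on the categories of closed morphisms of degree `0`. -/
def z0 (Φ : DGF C D) : Z0 C ⥤ Z0 D where
  obj X := Φ.zobj X
  map {X Y} a := zmk (X := Φ.zobj X) (Y := Φ.zobj Y) (Φ.map 0 (zf a)) (Φ.map_cl (zf a) (zf_cl a))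
  map_id X := z_ext (Φ.map_one (ob X))
  map_comp a b := z_ext (Φ.map_comp (zero_add 0) (zf a) (zf b))

theorem zf_z0 (Φ : DGF C D) {X Y : Z0 C} (a : X ⟶ Y) : zf (Φ.z0.map a) = Φ.map 0 (zf a) := rfl

/-- The identity. -/
def id (C : DGC.{u₁, v₁}) : DGF C C where
  obj X := X
  map _ := LinearMap.id
  map_one _ := rfl
  map_comp _ _ _ := rfl
  map_d _ _ _ := rfl

/-- The composition. -/
def comp (Φ : DGF C D) (Ψ : DGF D E) : DGF C E where
  obj X := Ψ.obj (Φ.obj X)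
  map n := (Ψ.map n).comp (Φ.map n)
  map_one X := by rw [LinearMap.comp_apply, Φ.map_one, Ψ.map_one]
  map_comp h α β := by
    rw [LinearMap.comp_apply, Φ.map_comp, Ψ.map_comp]
    rfl
  map_d m n α := by
    rw [LinearMap.comp_apply, Φ.map_d, Ψ.map_d]
    rfl

theorem comp_z0 (Φ : DGF C D) (Ψ : DGF D E) : (Φ.comp Ψ).z0 = Φ.z0 ⋙ Ψ.z0 := rfl

theorem id_z0 : (DGF.id C).z0 = 𝟭 (Z0 C) := rfl

end DGF

/-- A natural transformation of the functors on closed morphisms of degree `0`. -/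
def natT {C : DGC.{u₁, v₁}} {D : DGC.{u₂, v₂}} {Φ Ψ : DGF C D}
    (η : ∀ X : C.Obj, D.Hom (Φ.obj X) (Ψ.obj X) 0) (hη : ∀ X, D.d 0 1 (η X) = 0)
    (nat : ∀ {X Y : C.Obj} (f : C.Hom X Y 0), C.d 0 1 f = 0 →
      D.comp (zero_add 0) (Φ.map 0 f) (η Y) = D.comp (zero_add 0) (η X) (Ψ.map 0 f)) :
    Φ.z0 ⟶ Ψ.z0 where
  app X := zmk (X := Φ.zobj X) (Y := Ψ.zobj X) (η (ob X)) (hη (ob X))
  naturality _ _ a := z_ext (nat (zf a) (zf_cl a))

theorem zf_natT {C : DGC.{u₁, v₁}} {D : DGC.{u₂, v₂}} {Φ Ψ : DGF C D}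
    (η : ∀ X : C.Obj, D.Hom (Φ.obj X) (Ψ.obj X) 0) (hη : ∀ X, D.d 0 1 (η X) = 0)
    (nat : ∀ {X Y : C.Obj} (f : C.Hom X Y 0), C.d 0 1 f = 0 →
      D.comp (zero_add 0) (Φ.map 0 f) (η Y) = D.comp (zero_add 0) (η X) (Ψ.map 0 f)) (X : Z0 C) :
    zf ((natT η hη nat).app X) = η (ob X) := rfl

variable {T T' : TSite}

/-- The DG category of cartesian complexes. -/
def dgc (T : TSite) : DGC.{1, 1} where
  Obj := CCx T
  Hom K L n := Co K L n
  one := one
  comp h α β := α.comp β h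
  d m n α := δ m n α
  one_comp f := Cochain.id_comp f
  comp_one f := Cochain.comp_id f
  assoc f g h := Cochain.comp_assoc f g h (zero_add 0) (zero_add 0) (by omega)
  d_one _ := δ_ofHom _
  d_comp f g hf hg := by
    rw [δ_comp f g (zero_add 0) 1 1 1 (zero_add 1) (zero_add 1) (zero_add 1), hf, hg,
      Cochain.comp_zero, Cochain.zero_comp, smul_zero, add_zero]

/-- The cartesian complex. -/
def zc (K : Z0 (dgc T)) : CCx T := K

/-- The object defined by a cartesian complex. -/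
def cz (K : CCx T) : Z0 (dgc T) := K

/-- The cochain underlying a morphism. -/
def zco {K L : Z0 (dgc T)} (a : K ⟶ L) : Co (zc K) (zc L) 0 := zf a

theorem zco_cl {K L : Z0 (dgc T)} (a : K ⟶ L) : δ 0 1 (zco a) = 0 := zf_cl a

/-- The functor given by the identity on objects. -/
def toZ (T : TSite) : CCx T ⥤ Z0 (dgc T) where
  obj K := cz K
  map {K L} f := zmk (C := dgc T) (X := cz K) (Y := cz L) (Cochain.ofHom (hm f)) (δ_ofHom (hm f))
  map_id K := rfl
  map_comp f g := z_ext (Cochain.ofHom_comp (hm f) (hm g))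

/-- The morphism of cartesian complexes defined by a closed cochain. -/
def ofZm {K L : CCx T} (a : Co K L 0) (h : δ 0 1 a = 0) : K ⟶ L :=
  mkh (Cocycle.homOf (Cocycle.mk a 1 (zero_add 1) h))

theorem ofHom_ofZm {K L : CCx T} (a : Co K L 0) (h : δ 0 1 a = 0) :
    Cochain.ofHom (hm (ofZm a h)) = a :=
  Cocycle.cochain_ofHom_homOf_eq_coe _

theorem co_inj {K L : CCx T} {f g : K ⟶ L} (h : Cochain.ofHom (hm f) = Cochain.ofHom (hm g)) :
    f = g := hm_inj (Cochain.ofHom_injective h)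

theorem ofZm_one (K : CCx T) (h : δ 0 1 (one K) = 0) : ofZm (one K) h = 𝟙 K :=
  co_inj (ofHom_ofZm _ _)

theorem ofZm_comp {K L M : CCx T} (a : Co K L 0) (b : Co L M 0) (ha : δ 0 1 a = 0)
    (hb : δ 0 1 b = 0) (h : δ 0 1 (a.comp b (zero_add 0)) = 0) :
    ofZm (a.comp b (zero_add 0)) h = ofZm a ha ≫ ofZm b hb := by
  apply co_inj
  rw [ofHom_ofZm, hm_comp, Cochain.ofHom_comp, ofHom_ofZm, ofHom_ofZm]

/-- The functor given by the identity on objects. -/
def ofZ (T : TSite) : Z0 (dgc T) ⥤ CCx T where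
  obj K := zc K
  map {K L} a := ofZm (K := zc K) (L := zc L) (zco a) (zco_cl a)
  map_id K := ofZm_one (zc K) _
  map_comp a b := ofZm_comp (zco a) (zco b) (zco_cl a) (zco_cl b) _

theorem ofHom_ofZ {K L : Z0 (dgc T)} (a : K ⟶ L) :
    Cochain.ofHom (hm ((ofZ T).map a)) = zco a := ofHom_ofZm (zco a) (zco_cl a)

/-- The isomorphism of categories. -/
def toZof (T : TSite) : toZ T ⋙ ofZ T ≅ 𝟭 (CCx T) :=
  NatIso.ofComponents (fun K => Iso.refl K) (fun {K L} f => by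
    have h : (toZ T ⋙ ofZ T).map f = f := co_inj (ofHom_ofZ ((toZ T).map f))
    rw [h]
    exact (Category.comp_id _).trans (Category.id_comp _).symm)

/-- The isomorphism of categories. -/
def ofZto (T : TSite) : ofZ T ⋙ toZ T ≅ 𝟭 (Z0 (dgc T)) :=
  NatIso.ofComponents (fun K => Iso.refl K) (fun {K L} f => by
    have h : (ofZ T ⋙ toZ T).map f = f := z_ext (ofHom_ofZ f)
    rw [h]
    exact (Category.comp_id _).trans (Category.id_comp _).symm)

/-- The quasi-isomorphisms. -/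
def zqis (T : TSite) : MorphismProperty (Z0 (dgc T)) := (CCx.qis T).inverseImage (ofZ T)

/-- The DG functor in the sense of `DGFun`. -/
def DGF.toDGFun (Φ : DGF (dgc T) (dgc T')) : DGFun T T' where
  obj := Φ.obj
  map n := Φ.map n
  map_one := Φ.map_one
  map_comp h α β := Φ.map_comp h α β
  map_d m n α := Φ.map_d m n α

/-- Comparison of the functors on closed morphisms of degree `0`. -/
def DGF.fnIso (Φ : DGF (dgc T) (dgc T')) : Φ.toDGFun.fn ≅ toZ T ⋙ Φ.z0 ⋙ ofZ T' :=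
  NatIso.ofComponents (fun K => Iso.refl _) (fun {K L} f => by
    have h : Φ.toDGFun.fn.map f = (toZ T ⋙ Φ.z0 ⋙ ofZ T').map f := by
      apply co_inj
      refine (DGFun.ofHom_hom Φ.toDGFun (hm f)).trans ?_
      exact (ofHom_ofZ (Φ.z0.map ((toZ T).map f))).symm
    rw [h]
    exact (Category.comp_id _).trans (Category.id_comp _).symm)

end

end Vale.Agent.P286.H353
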