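import Vale.Agent.P286.H697.OmF
import Vale.Agent.P286.H353.DGCat

/-!
# The DG category of families of modules over the algebras of differential forms
-/

namespace Vale.Agent.P286.H353

open CategoryTheory
open Vale.Agent.P286.St Vale.Agent.P286.H847 Vale.Agent.P286.H697

noncomputable section

variable {T : TSite}

/-- The differential of cochains. -/
def odl {F F' : OmF T} (m n : ℤ) (z : OmF.Coch F F' m) : OmF.Coch F F' n :=
  if h : m + 1 = n then z.dl h else 0

theorem odl_eq {F F' : OmF T} {m n : ℤ} (h : m + 1 = n) (z : OmF.Coch F F' m) :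
    odl m n z = z.dl h := dif_pos h

theorem odl_ne {F F' : OmF T} {m n : ℤ} (h : ¬ m + 1 = n) (z : OmF.Coch F F' m) :
    odl m n z = 0 := dif_neg h

theorem odl_f {F F' : OmF T} {m n : ℤ} (h : m + 1 = n) (z : OmF.Coch F F' m) (X : T.C)
    (x : (F.F X).M.V) :
    (odl m n z).f X x = (F'.F X).M.d (z.f X x) - (m.negOnePow : ℤ) • z.f X ((F.F X).M.d x) := by
  rw [odl_eq h]
  rfl

/-- The DG category of families of modules over the algebras of differential forms. -/
def omc (T : TSite) : DGC.{1, 1} where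
  Obj := OmF T
  Hom F F' n := OmF.Coch F F' n
  one F := OmF.Coch.one F
  comp h z w := z.cmp w h
  d m n z := odl m n z
  one_comp f := OmF.Coch.ext' fun _ _ => rfl
  comp_one f := OmF.Coch.ext' fun _ _ => rfl
  assoc f g h := OmF.Coch.ext' fun _ _ => rfl
  d_one F := OmF.Coch.ext' fun X x => by
    rw [odl_f (zero_add 1)]
    simp [OmF.Coch.one]
  d_comp {F F' F''} f g hf hg := OmF.Coch.ext' fun X x => by
    rw [odl_f (zero_add 1)]
    have h1 := congrArg (fun z : OmF.Coch F F' 1 => z.f X x) hf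
    have h2 := congrArg (fun z : OmF.Coch F' F'' 1 => z.f X (f.f X x)) hg
    simp only [odl_f (zero_add 1), OmF.Coch.zero_f, LinearMap.zero_apply] at h1 h2
    simp only [OmF.Coch.cmp, OmF.Coch.zero_f, LinearMap.zero_apply, LinearMap.comp_apply]
    rw [Int.negOnePow_zero, Units.val_one, one_smul, sub_eq_zero] at h1 h2 ⊢
    rw [← h1, h2]

/-- A closed cochain of degree `0` from a family of morphisms. -/
def ococh {F F' : OmF T} (u : ∀ X : T.C, GD.Hom (F.F X).M (F'.F X).M)
    (hs : ∀ (X : T.C) (w : H710.Om ℂ (T.R X)) (x : (F.F X).M.V), (u X).f (w • x) = w • (u X).f x)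
    (ht : ∀ {X Y : T.C} (φ : X ⟶ Y) (x : (F.F X).M.V),
      (u Y).f ((F.t φ).f x) = (F'.t φ).f ((u X).f x)) : OmF.Coch F F' 0 where
  f X := (u X).f
  deg X m x hx := by
    rw [add_zero]
    exact (u X).deg m x hx
  smul X w x := by rw [Om.sgz_zero, hs]
  tr φ x := ht φ x

theorem odl_ococh {F F' : OmF T} (u : ∀ X : T.C, GD.Hom (F.F X).M (F'.F X).M)
    (hs : ∀ (X : T.C) (w : H710.Om ℂ (T.R X)) (x : (F.F X).M.V), (u X).f (w • x) = w • (u X).f x)
    (ht : ∀ {X Y : T.C} (φ : X ⟶ Y) (x : (F.F X).M.V),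
      (u Y).f ((F.t φ).f x) = (F'.t φ).f ((u X).f x)) : odl 0 1 (ococh u hs ht) = 0 :=
  OmF.Coch.ext' fun X x => by
    rw [odl_f (zero_add 1), Int.negOnePow_zero, Units.val_one, one_smul]
    change (F'.F X).M.d ((u X).f x) - (u X).f ((F.F X).M.d x) = 0
    rw [(u X).comm, sub_self]

/-- The morphism on sections of a closed cochain of degree `0`. -/
def oghom {F F' : OmF T} (z : OmF.Coch F F' 0) (h : odl 0 1 z = 0) (X : T.C) :
    GD.Hom (F.F X).M (F'.F X).M where
  f := z.f X
  comm x := by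
    have h1 := congrArg (fun z : OmF.Coch F F' 1 => z.f X x) h
    simp only [odl_f (zero_add 1), OmF.Coch.zero_f, LinearMap.zero_apply] at h1
    rw [Int.negOnePow_zero, Units.val_one, one_smul, sub_eq_zero] at h1
    exact h1.symm
  deg m x hx := by
    have h1 := z.deg X m x hx
    rwa [add_zero] at h1

end

end Vale.Agent.P286.H353
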