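import Vale.Agent.P286.H353.GlueG
import Vale.Agent.P286.H274.XD
import Vale.Agent.P286.H621.OfD
import Vale.Agent.P286.H652.Und
import Vale.Agent.P286.H652.CartQ

/-!
# The assembly for the classifying stack of a group
-/

namespace Vale.Agent.P286.H353

open CategoryTheory CochainComplex.HomComplex
open Vale.Agent.P286.St Vale.Agent.P286.H847 Vale.Agent.P286.H652

noncomputable section

universe u v u₁ v₁

section GH

variable {T : TSite}

/-- The closed morphism of a `GHom`. -/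
def gof {F F' : GTD T} (u : GHom F F') : zo (C := gtc T) F ⟶ zo (C := gtc T) F' :=
  gmk u.f u.fn u.vf u.tr

/-- The `GHom` of a closed morphism. -/
def goh {F F' : Z0 (gtc T)} (a : F ⟶ F') : GHom (gt F) (gt F') := GHom.ofCoch (gz a) (gz_cl a)

theorem goh_f {F F' : Z0 (gtc T)} (a : F ⟶ F') (X : T.C) : (goh a).f X = gh a X := rfl

theorem goh_gof {F F' : GTD T} (u : GHom F F') : goh (gof u) = u := rfl

theorem gof_goh {F F' : Z0 (gtc T)} (a : F ⟶ F') : gof (goh a) = a := rfl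

theorem goh_id (F : Z0 (gtc T)) : goh (𝟙 F) = GHom.id (gt F) := rfl

theorem goh_comp {F F' F'' : Z0 (gtc T)} (a : F ⟶ F') (b : F' ⟶ F'') :
    goh (a ≫ b) = (goh b).comp (goh a) := rfl

theorem g_ext {F F' : Z0 (gtc T)} {a b : F ⟶ F'}
    (h : ∀ X x, ((goh a).f X).f x = ((goh b).f X).f x) : a = b :=
  z_ext (GTD.Coch.ext' h)

/-- A functor on families, given on closed morphisms of degree `0`. -/
structure GFn (T : TSite) where
  obj : GTD T → GTD T
  map : ∀ {F F' : GTD T}, GHom F F' → GHom (obj F) (obj F')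
  map_id : ∀ (F : GTD T) (X : T.C) (x : ((obj F).F X).V), ((map (GHom.id F)).f X).f x = x
  map_comp : ∀ {F F' F'' : GTD T} (u : GHom F F') (v : GHom F' F'') (X : T.C)
    (x : ((obj F).F X).V),
    ((map (v.comp u)).f X).f x = ((map v).f X).f (((map u).f X).f x)

/-- The functor. -/
def GFn.fn (M : GFn T) : Z0 (gtc T) ⥤ Z0 (gtc T) where
  obj F := zo (C := gtc T) (M.obj (gt F))
  map a := gof (M.map (goh a))
  map_id F := g_ext (M.map_id (gt F))
  map_comp a b := g_ext (M.map_comp (goh a) (goh b))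

/-- Natural quasi-isomorphisms with values in `Z0 (gtc T)`. -/
theorem natW_g {E : Type u₁} [Category.{v₁} E] {F G : E ⥤ Z0 (gtc T)}
    (η : ∀ X : E, GHom (gt (F.obj X)) (gt (G.obj X)))
    (nat : ∀ {X Y : E} (a : X ⟶ Y) (A : T.C) (x : ((gt (F.obj X)).F A).V),
      ((η Y).f A).f (((goh (F.map a)).f A).f x) = ((goh (G.map a)).f A).f (((η X).f A).f x))
    (hq : ∀ X A, GD.Qis ((η X).f A)) : NatW (gqis T) F G :=
  ⟨{ app := fun X => gof (η X)
     naturality := fun _ _ a => g_ext (nat a) }, hq⟩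

end GH

section BG

open Vale.Agent.P286.Gen Vale.Agent.P286.H295 Vale.Agent.P286.H64 Vale.Agent.P286.H697
  Vale.Agent.P286.H761 Vale.Agent.P286.H274 Vale.Agent.P286.H621

variable {N : ℕ} {Γ : Gps N} [hs : Algebra.Smooth ℂ (Of Γ)] {W : SGD} {n : ℕ}

/-- The functor from families to modules over the exterior algebra. -/
def XG (G : GauX Γ W n) : DGF (gtc (BGT Γ)) (LMod n) := (DRFd (H652.strBG Γ)).comp (XId G)

/-- The functor from cartesian complexes to families. -/
def inO (T : TSite) : DGF (dgc T) (gtc T) := (inc T).comp (ofD T)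

/-- The functor from cartesian complexes to modules over the exterior algebra. -/
def XiG (G : GauX Γ W n) : DGF (dgc (BGT Γ)) (LMod n) := (inO (BGT Γ)).comp (XG G)

theorem inc_comp_obj (T : TSite) (K : CCx T) :
    ((inc T).z0 ⋙ ((ofD T).comp (toD T)).z0).obj (cz K) =
      (((inc T).comp (ofD T)).z0 ⋙ (toD T).z0).obj (cz K) := rfl

/-- The complex of the family of a cartesian complex is cartesian. -/
theorem cart_ofD {T : TSite} (K : Z0 (dgc T)) :
    Cx.Cart (T := T) (zcx ((((inc T).comp (ofD T)).z0 ⋙ (toD T).z0).obj K)) :=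
  cart_of_qis (zhom ((natFr T).app ((inc T).z0.obj K))) (xqis_natFr ((inc T).z0.obj K))
    (cart_cx (zc K))

theorem zO_ofD (T : TSite) :
    NatZ (xqis T) (inc T).z0 (((inc T).comp (ofD T)).z0 ⋙ (toD T).z0) :=
  Or.inl ((natW_ofD' T).left (inc T).z0)

/-- What the side of the group delivers: the functor `Y` from modules over the exterior algebra
to families, the middle terms `M` and `L` of the two zigzags and the quasi-isomorphisms. -/
structure BParts (G : GauX Γ W n) where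
  Y : DGF (LMod n) (gtc (BGT Γ))
  M : Z0 (dgc (BGT Γ)) ⥤ Z0 (gtc (BGT Γ))
  L : Z0 (LMod n) ⥤ Z0 (LMod n)
  cart : ∀ P : LM n, Cx.Cart (T := BGT Γ) ((Y.comp (toD (BGT Γ))).obj P)
  presX : ∀ ⦃K L : Z0 (dgc (BGT Γ))⦄ (a : K ⟶ L), zqis (BGT Γ) a → LMod.W n ((XiG G).z0.map a)
  presY : ∀ ⦃P Q : Z0 (LMod n)⦄ (a : P ⟶ Q), LMod.W n a → gqis (BGT Γ) (Y.z0.map a)
  zM : NatW (gqis (BGT Γ)) ((XiG G).z0 ⋙ Y.z0) M
  zM' : NatW (gqis (BGT Γ)) (inO (BGT Γ)).z0 M
  zL : Zig (LMod.W n) ((((Y.comp (toD (BGT Γ))).comp (ofD (BGT Γ))).comp (XG G)).z0) L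
  zL' : Zig (LMod.W n) (𝟭 (Z0 (LMod n))) L

/-- The middle term is cartesian. -/
theorem cart_mid {T : TSite} {M : Z0 (dgc T) ⥤ Z0 (gtc T)} (h : NatW (gqis T) (inO T).z0 M)
    (K : Z0 (dgc T)) : Cx.Cart (T := T) (zcx ((M ⋙ (toD T).z0).obj K)) := by
  obtain ⟨η, h⟩ := h
  exact cart_of_qis (zhom ((toD T).z0.map (η.app K))) (toD_pres _ (h K)) (cart_ofD K)

/-- The assembly. -/
def BParts.gp {G : GauX Γ W n} (p : BParts G) : GParts (BGT Γ) (LMod n) (LMod.W n) where
  O := ofD (BGT Γ)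
  X := XG G
  Y := p.Y
  M := p.M
  N := p.L
  cartO := cart_ofD
  cart := p.cart
  cartM := cart_mid p.zM'
  presX := p.presX
  presY := p.presY
  zO := zO_ofD (BGT Γ)
  zM := Or.inl p.zM
  zM' := Or.inl p.zM'
  zN := p.zL
  zN' := p.zL'

end BG

/-- The theorem for two groups. -/
theorem dgs_of_bparts {N N' : ℕ} {Γ : Gen.Gps N} {Γ' : Gen.Gps N'}
    [Algebra.Smooth ℂ (Gen.Of Γ)] [Algebra.Smooth ℂ (Gen.Of Γ')] {W W' : SGD} {n : ℕ}
    {G : H761.GauX Γ W n} {G' : H761.GauX Γ' W' n} (p : BParts G) (q : BParts G') :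
    DGS (Gen.BGT Γ) (Gen.BGT Γ') := dgs_of_gparts p.gp q.gp

end

end Vale.Agent.P286.H353
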