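import Vale.Agent.P286.H353.Glue
import Vale.Agent.P286.H847.BrgD

/-!
# The assembly in terms of families of graded differential spaces
-/

namespace Vale.Agent.P286.H353

open CategoryTheory CochainComplex.HomComplex
open Vale.Agent.P286.St Vale.Agent.P286.H847

noncomputable section

universe u v u₁ v₁ u₂ v₂ u₃ v₃

section

variable {C : Type u₁} {D : Type u₂} {E : Type u₃} [Category.{v₁} C] [Category.{v₂} D]
  [Category.{v₃} E] {W : MorphismProperty D} {W' : MorphismProperty E} {F G : C ⥤ D}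

theorem NatW.right (h : NatW W F G) (H : D ⥤ E)
    (hH : ∀ ⦃X Y : D⦄ (u : X ⟶ Y), W u → W' (H.map u)) : NatW W' (F ⋙ H) (G ⋙ H) := by
  obtain ⟨η, h⟩ := h
  exact ⟨Functor.whiskerRight η H, fun X => hH _ (h _)⟩

theorem NatZ.right (h : NatZ W F G) (H : D ⥤ E)
    (hH : ∀ ⦃X Y : D⦄ (u : X ⟶ Y), W u → W' (H.map u)) : NatZ W' (F ⋙ H) (G ⋙ H) := by
  rcases h with h | h
  · exact Or.inl (h.right H hH)
  · exact Or.inr (h.right H hH)

theorem NatW.left (h : NatW W F G) (H : E ⥤ C) : NatW W (H ⋙ F) (H ⋙ G) := by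
  obtain ⟨η, h⟩ := h
  exact ⟨Functor.whiskerLeft H η, fun X => h _⟩

theorem NatZ.left (h : NatZ W F G) (H : E ⥤ C) : NatZ W (H ⋙ F) (H ⋙ G) := by
  rcases h with h | h
  · exact Or.inl (h.left H)
  · exact Or.inr (h.left H)

end

variable {T T' : TSite} {D : DGC.{u, v}} {W : MorphismProperty (Z0 D)}

theorem zcart {C : DGC.{u, v}} (V : DGF C (cxc T)) (h : ∀ P, Cx.Cart (T := T) (V.obj P))
    (P : Z0 C) : Cx.Cart (T := T) (zcx (V.z0.obj P)) := h (ob P)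

theorem toC_z0 {C : DGC.{u, v}} (V : DGF C (cxc T)) (h : ∀ P, Cx.Cart (T := T) (V.obj P)) :
    (toC V h).z0 = clift V.z0 (zcart V h) := rfl

theorem clift_comp {E : Type u₁} [Category.{v₁} E] {E' : Type u₂} [Category.{v₂} E'] (H : E ⥤ E')
    (F : E' ⥤ Z0 (cxc T)) (h : ∀ X, Cx.Cart (T := T) (zcx (F.obj X))) :
    clift (H ⋙ F) (fun X => h (H.obj X)) = H ⋙ clift F h := rfl

theorem cart_inc (K : Z0 (dgc T)) : Cx.Cart (T := T) (zcx ((inc T).z0.obj K)) := cart_cx (zc K)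

theorem clift_inc : clift (inc T).z0 cart_inc = 𝟭 (Z0 (dgc T)) := rfl

/-- The zigzag on the side of the complexes. -/
theorem un_gen (U : DGF (dgc T) D) (V : DGF D (cxc T))
    (hV : ∀ P, Cx.Cart (T := T) (V.obj P)) (M O : Z0 (dgc T) ⥤ Z0 (cxc T))
    (hM : ∀ X, Cx.Cart (T := T) (zcx (M.obj X))) (hO : ∀ X, Cx.Cart (T := T) (zcx (O.obj X)))
    (a : NatZ (xqis T) (U.z0 ⋙ V.z0) M) (b : NatZ (xqis T) O M)
    (c : NatZ (xqis T) (inc T).z0 O) : Zig (zqis T) (U.z0 ⋙ (toC V hV).z0) (𝟭 _) := by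
  rw [toC_z0, ← clift_comp, ← clift_inc]
  exact ((natZ_clift _ hM a).zig.trans (natZ_clift hO hM b).zig.symm).trans
    (natZ_clift cart_inc hO c).zig.symm

/-- The parts of the equivalence, in terms of families of graded differential spaces:
`O` goes from complexes to families, `X` from families to `D`, `Y` from `D` to families, `M` and `N`
are the middle terms of the two zigzags. -/
structure GParts (T : TSite) (D : DGC.{u, v}) (W : MorphismProperty (Z0 D)) where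
  O : DGF (cxc T) (gtc T)
  X : DGF (gtc T) D
  Y : DGF D (gtc T)
  M : Z0 (dgc T) ⥤ Z0 (gtc T)
  N : Z0 D ⥤ Z0 D
  cartO : ∀ K, Cx.Cart (T := T) (zcx ((((inc T).comp O).z0 ⋙ (toD T).z0).obj K))
  cart : ∀ P : D.Obj, Cx.Cart (T := T) ((Y.comp (toD T)).obj P)
  cartM : ∀ K, Cx.Cart (T := T) (zcx ((M ⋙ (toD T).z0).obj K))
  presX : ∀ ⦃K L : Z0 (dgc T)⦄ (a : K ⟶ L), zqis T a → W ((((inc T).comp O).comp X).z0.map a)
  presY : ∀ ⦃P Q : Z0 D⦄ (a : P ⟶ Q), W a → gqis T (Y.z0.map a)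
  zO : NatZ (xqis T) (inc T).z0 (((inc T).comp O).z0 ⋙ (toD T).z0)
  zM : NatZ (gqis T) ((((inc T).comp O).comp X).z0 ⋙ Y.z0) M
  zM' : NatZ (gqis T) ((inc T).comp O).z0 M
  zN : Zig W ((((Y.comp (toD T)).comp O).comp X).z0) N
  zN' : Zig W (𝟭 (Z0 D)) N

theorem toD_pres ⦃F F' : Z0 (gtc T)⦄ (a : F ⟶ F') (h : gqis T a) :
    xqis T ((toD T).z0.map a) := (xqis_toD a).2 h

theorem clift_map {E : Type u₁} [Category.{v₁} E] (F : E ⥤ Z0 (cxc T))
    (h : ∀ X, Cx.Cart (T := T) (zcx (F.obj X))) {P Q : E} (a : P ⟶ Q) :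
    (clift F h).map a = cdn (h P) (h Q) (F.map a) := rfl

theorem zqis_clift {E : Type u₁} [Category.{v₁} E] (F : E ⥤ Z0 (cxc T))
    (h : ∀ X, Cx.Cart (T := T) (zcx (F.obj X))) {P Q : E} (a : P ⟶ Q)
    (ha : xqis T (F.map a)) : zqis T ((clift F h).map a) := by
  rw [clift_map]
  exact zqis_cdn _ _ ha

theorem zqis_toC {C : DGC.{u, v}} (V : DGF C (cxc T)) (h : ∀ P, Cx.Cart (T := T) (V.obj P))
    {P Q : Z0 C} (a : P ⟶ Q) (ha : xqis T (V.z0.map a)) : zqis T ((toC V h).z0.map a) :=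
  zqis_clift V.z0 (zcart V h) a ha

theorem comp_map {C : DGC.{u, v}} {D : DGC.{u₁, v₁}} {E : DGC.{u₂, v₂}} (F : DGF C D)
    (G : DGF D E) {P Q : Z0 C} (a : P ⟶ Q) : (F.comp G).z0.map a = G.z0.map (F.z0.map a) := rfl

theorem comp_z0' {C E : DGC.{u, v}} {D : DGC.{u₁, v₁}} (F : DGF C D) (G : DGF D E)
    (H : Z0 E ⥤ Z0 E) : F.z0 ⋙ (G.z0 ⋙ H) = (F.comp G).z0 ⋙ H := rfl

namespace GParts

/-- The functor from cartesian complexes. -/
def Xi (p : GParts T D W) : DGF (dgc T) D := ((inc T).comp p.O).comp p.X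

/-- The functor to cartesian complexes. -/
def Th (p : GParts T D W) : DGF D (dgc T) := toC (p.Y.comp (toD T)) p.cart

theorem un (p : GParts T D W) : Zig (zqis T) (p.Xi.z0 ⋙ p.Th.z0) (𝟭 _) :=
  un_gen p.Xi (p.Y.comp (toD T)) p.cart (p.M ⋙ (toD T).z0)
    (((inc T).comp p.O).z0 ⋙ (toD T).z0) p.cartM p.cartO (p.zM.right (toD T).z0 toD_pres)
    (p.zM'.right (toD T).z0 toD_pres) p.zO

theorem toC_comp (V : DGF D (cxc T)) (h : ∀ P, Cx.Cart (T := T) (V.obj P))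
    (U : DGF (cxc T) D) : (toC V h).z0 ⋙ ((inc T).comp U).z0 = (V.comp U).z0 := rfl

theorem assoc_z0 (V : DGF D (cxc T)) (O : DGF (cxc T) (gtc T)) (X : DGF (gtc T) D)
    (h : ∀ P, Cx.Cart (T := T) (V.obj P)) :
    (toC V h).z0 ⋙ (((inc T).comp O).comp X).z0 = ((V.comp O).comp X).z0 := rfl

theorem co (p : GParts T D W) : Zig W (p.Th.z0 ⋙ p.Xi.z0) (𝟭 _) := by
  have h := p.zN.trans p.zN'.symm
  rw [← assoc_z0 (p.Y.comp (toD T)) p.O p.X p.cart] at h
  exact h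

theorem presTh (p : GParts T D W) : Pres W (zqis T) p.Th.z0 := fun P Q a ha =>
  zqis_toC (p.Y.comp (toD T)) p.cart a (by
    rw [comp_map]
    exact toD_pres _ (p.presY a ha))

theorem inv (p : GParts T D W) : Inv (zqis T) W p.Xi.z0 p.Th.z0 :=
  ⟨p.presX, p.presTh, p.un, p.co⟩

end GParts

/-- The theorem: two test categories with such an equivalence are DG equivalent. -/
theorem dgs_of_gparts (p : GParts T D W) (q : GParts T' D W) : DGS T T' := dgs_of_dgf p.inv q.inv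

end

end Vale.Agent.P286.H353
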