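import Vale.Agent.P286.H353.DG
import Vale.Agent.P286.H211.QE

/-!
# A criterion for quasi-equivalences of DG categories
-/

namespace Vale.Agent.P286.H353

open CategoryTheory
open Vale.Agent.P286.St

noncomputable section

section Zig

universe v₁ v₂ v₃ u₁ u₂ u₃

variable {C : Type u₁} {D : Type u₂} {E : Type u₃} [Category.{v₁} C] [Category.{v₂} D]
  [Category.{v₃} E]

/-- There is a natural transformation with values in `W`. -/
def NatW (W : MorphismProperty D) (F G : C ⥤ D) : Prop := ∃ η : F ⟶ G, ∀ X, W (η.app X)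

/-- The functors are connected by a zigzag of natural transformations with values in `W`. -/
def Zig (W : MorphismProperty D) (F G : C ⥤ D) : Prop := Relation.EqvGen (NatW W) F G

theorem NatW.zig {W : MorphismProperty D} {F G : C ⥤ D} (h : NatW W F G) : Zig W F G :=
  Relation.EqvGen.rel _ _ h

theorem Zig.symm {W : MorphismProperty D} {F G : C ⥤ D} (h : Zig W F G) : Zig W G F :=
  Relation.EqvGen.symm _ _ h

theorem Zig.trans {W : MorphismProperty D} {F G H : C ⥤ D} (h : Zig W F G) (h' : Zig W G H) :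
    Zig W F H := Relation.EqvGen.trans _ _ _ h h'

theorem NatW.iso {W : MorphismProperty D} {F G : C ⥤ D} (h : NatW W F G) :
    Nonempty (F ⋙ W.Q ≅ G ⋙ W.Q) := by
  obtain ⟨η, h⟩ := h
  have : IsIso (Functor.whiskerRight η W.Q) := by
    rw [NatTrans.isIso_iff_isIso_app]
    exact fun _ ↦ Localization.inverts W.Q W _ (h _)
  exact ⟨asIso (Functor.whiskerRight η W.Q)⟩

theorem Zig.iso {W : MorphismProperty D} {F G : C ⥤ D} (h : Zig W F G) :
    Nonempty (F ⋙ W.Q ≅ G ⋙ W.Q) := by
  induction h with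
  | rel F G h => exact h.iso
  | refl F => exact ⟨Iso.refl _⟩
  | symm F G _ ih => exact ih.map Iso.symm
  | trans F G H _ _ ih ih' =>
    obtain ⟨e⟩ := ih
    obtain ⟨e'⟩ := ih'
    exact ⟨e ≪≫ e'⟩

theorem Zig.of_iso {W : MorphismProperty D} [W.ContainsIdentities] [W.RespectsIso] {F G : C ⥤ D}
    (e : F ≅ G) : Zig W F G :=
  NatW.zig ⟨e.hom, fun X => W.of_isIso (e.hom.app X)⟩

/-- Whiskering on the left. -/
theorem Zig.left {W : MorphismProperty D} {F G : C ⥤ D} (h : Zig W F G) (H : E ⥤ C) :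
    Zig W (H ⋙ F) (H ⋙ G) := by
  induction h with
  | rel F G h =>
    obtain ⟨η, h⟩ := h
    exact NatW.zig ⟨Functor.whiskerLeft H η, fun X => h _⟩
  | refl F => exact Relation.EqvGen.refl _
  | symm F G _ ih => exact ih.symm
  | trans F G H _ _ ih ih' => exact ih.trans ih'

/-- Whiskering on the right with a functor which preserves the weak equivalences. -/
theorem Zig.right {W : MorphismProperty D} {F G : C ⥤ D} (h : Zig W F G)
    {W' : MorphismProperty E} (H : D ⥤ E) (hH : ∀ ⦃X Y : D⦄ (u : X ⟶ Y), W u → W' (H.map u)) :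
    Zig W' (F ⋙ H) (G ⋙ H) := by
  induction h with
  | rel F G h =>
    obtain ⟨η, h⟩ := h
    exact NatW.zig ⟨Functor.whiskerRight η H, fun X => hH _ (h _)⟩
  | refl F => exact Relation.EqvGen.refl _
  | symm F G _ ih => exact ih.symm
  | trans F G H _ _ ih ih' => exact ih.trans ih'

end Zig

section

universe v u

variable {T T' : TSite} {D : Type u} [Category.{v} D] {W : MorphismProperty D}

/-- The functor preserves the weak equivalences. -/
def Pres {C : Type*} [Category* C] {E : Type*} [Category* E] (W : MorphismProperty C)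
    (W' : MorphismProperty E) (F : C ⥤ E) : Prop := ∀ ⦃X Y : C⦄ (u : X ⟶ Y), W u → W' (F.map u)

/-- A pair of functors which are inverse to each other up to zigzags of weak equivalences. -/
structure Inv {C : Type*} [Category* C] {E : Type*} [Category* E] (W : MorphismProperty C)
    (W' : MorphismProperty E) (F : C ⥤ E) (G : E ⥤ C) : Prop where
  pF : Pres W W' F
  pG : Pres W' W G
  un : Zig W (F ⋙ G) (𝟭 C)
  co : Zig W' (G ⋙ F) (𝟭 E)

theorem Inv.symm {C : Type*} [Category* C] {E : Type*} [Category* E] {W : MorphismProperty C}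
    {W' : MorphismProperty E} {F : C ⥤ E} {G : E ⥤ C} (h : Inv W W' F G) : Inv W' W G F :=
  ⟨h.pG, h.pF, h.co, h.un⟩

/-- The localizer morphism. -/
abbrev Inv.lo {C : Type*} [Category* C] {E : Type*} [Category* E] {W : MorphismProperty C}
    {W' : MorphismProperty E} {F : C ⥤ E} {G : E ⥤ C} (h : Inv W W' F G) :
    LocalizerMorphism W W' where
  functor := F
  map := fun _ _ u hu => h.pF u hu

theorem Inv.equiv {C : Type*} [Category* C] {E : Type*} [Category* E] {W : MorphismProperty C}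
    {W' : MorphismProperty E} {F : C ⥤ E} {G : E ⥤ C} (h : Inv W W' F G) :
    h.lo.IsLocalizedEquivalence := by
  obtain ⟨e₁⟩ := h.un.iso
  obtain ⟨e₂⟩ := h.co.iso
  exact isLocalizedEquivalence_of_iso h.lo h.symm.lo (e₁ ≪≫ Functor.leftUnitor _)
    (e₂ ≪≫ Functor.leftUnitor _)

/-- The criterion: the DG functor `Φ` is the composite, on closed morphisms of degree `0` and up to
isomorphism, of two functors which are invertible up to zigzags. -/
theorem isQE_of_middle {Φ : DGFun T T'} {X₁ : CCx T ⥤ D} {Y₁ : D ⥤ CCx T} {X₂ : CCx T' ⥤ D}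
    {Y₂ : D ⥤ CCx T'} (h₁ : Inv (CCx.qis T) W X₁ Y₁) (h₂ : Inv (CCx.qis T') W X₂ Y₂)
    (e : Φ.fn ≅ X₁ ⋙ Y₂) : IsQE Φ := by
  have := h₁.equiv
  have := h₂.symm.equiv
  let L : LocalizerMorphism (CCx.qis T) (CCx.qis T') := h₁.lo.comp h₂.symm.lo
  have hL : L.IsLocalizedEquivalence := inferInstance
  let G := L.localizedFunctor (CCx.qis T).Q (CCx.qis T').Q
  have hG : G.IsEquivalence := inferInstance
  have i : L.functor ⋙ (CCx.qis T').Q ≅ (CCx.qis T).Q ⋙ G :=
    CatCommSq.iso L.functor (CCx.qis T).Q (CCx.qis T').Q G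
  exact ⟨G, hG, ⟨i.symm ≪≫ Functor.isoWhiskerRight e.symm (CCx.qis T').Q⟩⟩

/-- The criterion for a DG functor which has an inverse up to zigzags. -/
theorem isQE_of_inv {Φ : DGFun T T'} {Y : CCx T' ⥤ CCx T}
    (h : Inv (CCx.qis T) (CCx.qis T') Φ.fn Y) : IsQE Φ := by
  let L : LocalizerMorphism (CCx.qis T) (CCx.qis T') := h.lo
  have hL : L.IsLocalizedEquivalence := h.equiv
  let G := L.localizedFunctor (CCx.qis T).Q (CCx.qis T').Q
  have hG : G.IsEquivalence := inferInstance
  have i : L.functor ⋙ (CCx.qis T').Q ≅ (CCx.qis T).Q ⋙ G :=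
    (L.catCommSq (CCx.qis T).Q (CCx.qis T').Q).iso
  exact ⟨G, hG, ⟨i.symm⟩⟩

theorem dgs_of_middle (Φ : DGFun T T') {X₁ : CCx T ⥤ D} {Y₁ : D ⥤ CCx T} {X₂ : CCx T' ⥤ D}
    {Y₂ : D ⥤ CCx T'} (h₁ : Inv (CCx.qis T) W X₁ Y₁) (h₂ : Inv (CCx.qis T') W X₂ Y₂)
    (e : Φ.fn ≅ X₁ ⋙ Y₂) : DGS T T' := ⟨Φ, isQE_of_middle h₁ h₂ e⟩

end

end

end Vale.Agent.P286.H353
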