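import Vale.Agent.P286.St.TD

/-!
# DG functors between the DG categories of cartesian complexes
-/

namespace Vale.Agent.P286.H353

open CategoryTheory CochainComplex.HomComplex
open Vale.Agent.P286.St

noncomputable section

section Gen

universe v₁ v₂ u₁ u₂

variable {C : Type u₁} {D : Type u₂} [Category.{v₁} C] [Category.{v₂} D] [Preadditive C]
  [Preadditive D] (Φ : C ⥤ D) [Φ.Additive]

/-- The functor on complexes. -/
abbrev mpc (K : CochainComplex C ℤ) : CochainComplex D ℤ :=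
  (Φ.mapHomologicalComplex (ComplexShape.up ℤ)).obj K

variable {K L M : CochainComplex C ℤ} {K' L' M' : CochainComplex D ℤ}

/-- The value on a cochain, composed with two morphisms. -/
def cj (a : K' ⟶ mpc Φ K) (b : mpc Φ L ⟶ L') (n : ℤ) (α : Cochain K L n) : Cochain K' L' n :=
  (Cochain.ofHom a).comp ((α.map Φ).comp (Cochain.ofHom b) (add_zero n)) (zero_add n)

variable (a : K' ⟶ mpc Φ K) (b : mpc Φ L ⟶ L') (n : ℤ)

theorem cj_add (α β : Cochain K L n) : cj Φ a b n (α + β) = cj Φ a b n α + cj Φ a b n β := by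
  unfold cj
  rw [Cochain.map_add, Cochain.add_comp, Cochain.comp_add]

theorem cj_smul [Linear ℂ C] [Linear ℂ D] [Φ.Linear ℂ] (c : ℂ) (α : Cochain K L n) :
    cj Φ a b n (c • α) = c • cj Φ a b n α := by
  unfold cj
  have h : Cochain.map (c • α) Φ = c • Cochain.map α Φ := by
    ext p q hpq
    exact Φ.map_smul _ _
  rw [h, Cochain.smul_comp, Cochain.comp_smul]

theorem cj_one (a : K' ⟶ mpc Φ K) (b : mpc Φ K ⟶ K') (h : a ≫ b = 𝟙 _) :
    cj Φ a b 0 (Cochain.ofHom (𝟙 K)) = Cochain.ofHom (𝟙 K') := by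
  unfold cj
  rw [Cochain.map_ofHom, CategoryTheory.Functor.map_id, ← Cochain.ofHom_comp,
    ← Cochain.ofHom_comp, Category.id_comp, h]

theorem cj_comp (a' : L' ⟶ mpc Φ L) (b' : mpc Φ M ⟶ M') (h' : b ≫ a' = 𝟙 _) {m p : ℤ}
    (h : n + m = p) (α : Cochain K L n) (β : Cochain L M m) :
    cj Φ a b' p (α.comp β h) = (cj Φ a b n α).comp (cj Φ a' b' m β) h := by
  unfold cj
  rw [Cochain.map_comp]
  ext p' q' hp
  have h1 : b.f (p' + n) ≫ a'.f (p' + n) = 𝟙 _ := by
    rw [← HomologicalComplex.comp_f, h']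
    rfl
  simp only [Cochain.zero_cochain_comp_v, Cochain.comp_zero_cochain_v, Cochain.ofHom_v,
    Cochain.comp_v _ _ h p' (p' + n) q' rfl (by lia), Category.assoc]
  rw [reassoc_of% h1]

theorem cj_δ (m : ℤ) (α : Cochain K L n) : cj Φ a b m (δ n m α) = δ n m (cj Φ a b n α) := by
  unfold cj
  rw [δ_ofHom_comp, δ_comp_ofHom, δ_map]

end Gen

variable {T T' T'' : TSite}

/-- The complex underlying a cartesian complex. -/
def cx (K : CCx T) : CochainComplex (TD T) ℤ := ObjectProperty.FullSubcategory.obj K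

/-- The morphisms of degree `n` between cartesian complexes. -/
abbrev Co (K L : CCx T) (n : ℤ) : Type 1 := Cochain (cx K) (cx L) n

/-- The identity, as a morphism of degree `0`. -/
def one (K : CCx T) : Co K K 0 := Cochain.ofHom (𝟙 (cx K))

/-- A DG functor between the DG categories of cartesian complexes. -/
structure DGFun (T T' : TSite) where
  obj : CCx T → CCx T'
  map : ∀ {K L : CCx T} (n : ℤ), Co K L n →ₗ[ℂ] Co (obj K) (obj L) n
  map_one : ∀ K : CCx T, map 0 (one K) = one (obj K)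
  map_comp : ∀ {K L M : CCx T} {m n p : ℤ} (h : m + n = p) (α : Co K L m) (β : Co L M n),
    map p (α.comp β h) = (map m α).comp (map n β) h
  map_d : ∀ {K L : CCx T} (m n : ℤ) (α : Co K L m), map n (δ m n α) = δ m n (map m α)

/-- The morphism of complexes underlying a morphism of cartesian complexes. -/
def hm {K L : CCx T} (f : K ⟶ L) : cx K ⟶ cx L := InducedCategory.Hom.hom f

/-- The morphism of cartesian complexes defined by a morphism of complexes. -/
def mkh {K L : CCx T} (f : cx K ⟶ cx L) : K ⟶ L := ObjectProperty.homMk f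

theorem hm_mkh {K L : CCx T} (f : cx K ⟶ cx L) : hm (mkh f) = f := rfl

theorem hm_id (K : CCx T) : hm (𝟙 K) = 𝟙 (cx K) := rfl

theorem hm_comp {K L M : CCx T} (f : K ⟶ L) (g : L ⟶ M) : hm (f ≫ g) = hm f ≫ hm g := rfl

theorem hm_inj {K L : CCx T} {f g : K ⟶ L} (h : hm f = hm g) : f = g := ObjectProperty.hom_ext _ h

namespace DGFun

/-- The value on a closed morphism of degree `0`. -/
def hom (Φ : DGFun T T') {K L : CCx T} (f : cx K ⟶ cx L) : cx (Φ.obj K) ⟶ cx (Φ.obj L) :=
  Cocycle.homOf (Cocycle.mk (Φ.map 0 (Cochain.ofHom f)) 1 (zero_add 1) (by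
    rw [← Φ.map_d, δ_ofHom, map_zero]))

theorem ofHom_hom (Φ : DGFun T T') {K L : CCx T} (f : cx K ⟶ cx L) :
    Cochain.ofHom (Φ.hom f) = Φ.map 0 (Cochain.ofHom f) :=
  Cocycle.cochain_ofHom_homOf_eq_coe _

/-- The functor on the categories of closed morphisms of degree `0`. -/
def fn (Φ : DGFun T T') : CCx T ⥤ CCx T' where
  obj := Φ.obj
  map f := mkh (Φ.hom (hm f))
  map_id K := by
    apply hm_inj
    apply Cochain.ofHom_injective
    rw [hm_mkh, ofHom_hom]
    exact Φ.map_one K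
  map_comp f g := by
    apply hm_inj
    apply Cochain.ofHom_injective
    rw [hm_mkh, ofHom_hom, hm_comp, hm_comp, Cochain.ofHom_comp, Cochain.ofHom_comp, hm_mkh,
      hm_mkh, ofHom_hom, ofHom_hom]
    exact Φ.map_comp (add_zero 0) _ _

/-- The composition of DG functors. -/
def comp (Φ : DGFun T T') (Ψ : DGFun T' T'') : DGFun T T'' where
  obj K := Ψ.obj (Φ.obj K)
  map n := (Ψ.map n).comp (Φ.map n)
  map_one K := by
    rw [LinearMap.comp_apply, Φ.map_one, Ψ.map_one]
  map_comp h α β := by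
    rw [LinearMap.comp_apply, Φ.map_comp, Ψ.map_comp]
    rfl
  map_d m n α := by
    rw [LinearMap.comp_apply, Φ.map_d, Ψ.map_d]
    rfl

end DGFun

/-- A DG functor *is a quasi-equivalence* if it induces an equivalence of the categories obtained
by inverting the quasi-isomorphisms of cartesian complexes. -/
def IsQE (Φ : DGFun T T') : Prop :=
  ∃ F : Ho T ⥤ Ho T', F.IsEquivalence ∧ Nonempty (Ho.Q T ⋙ F ≅ Φ.fn ⋙ Ho.Q T')

/-- One step of an equivalence between the DG categories of cartesian complexes. -/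
def DGS (T T' : TSite) : Prop := ∃ Φ : DGFun T T', IsQE Φ

/-- The DG categories of cartesian complexes (with the quasi-isomorphisms inverted) are equivalent:
they are connected by a zigzag of quasi-equivalences. -/
def DGE (T T' : TSite) : Prop := Relation.EqvGen DGS T T'

section Lin

variable (Φ : TD T ⥤ TD T') [Φ.Additive] (Ψ : CCx T ⥤ CCx T')
  (e : Ψ ⋙ CCx.incl T' ≅ CCx.incl T ⋙ mapCx Φ)

/-- The comparison map. -/
def eh (K : CCx T) : cx (Ψ.obj K) ⟶ mpc Φ (cx K) := e.hom.app K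

/-- The comparison map. -/
def ei (K : CCx T) : mpc Φ (cx K) ⟶ cx (Ψ.obj K) := e.inv.app K

theorem eh_ei (K : CCx T) : eh Φ Ψ e K ≫ ei Φ Ψ e K = 𝟙 _ := e.hom_inv_id_app K

theorem ei_eh (K : CCx T) : ei Φ Ψ e K ≫ eh Φ Ψ e K = 𝟙 _ := e.inv_hom_id_app K

theorem eh_nat {K L : CCx T} (f : K ⟶ L) :
    eh Φ Ψ e K ≫ (Φ.mapHomologicalComplex (ComplexShape.up ℤ)).map (hm f) =
      hm (Ψ.map f) ≫ eh Φ Ψ e L := (e.hom.naturality f).symm

/-- The DG functor defined by a linear functor. -/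
def ofLin [Φ.Linear ℂ] : DGFun T T' where
  obj := Ψ.obj
  map {K L} n :=
    { toFun := cj Φ (eh Φ Ψ e K) (ei Φ Ψ e L) n
      map_add' := fun α β => cj_add Φ _ _ n α β
      map_smul' := fun c α => cj_smul Φ _ _ n c α }
  map_one K := cj_one Φ _ _ (eh_ei Φ Ψ e K)
  map_comp h α β := cj_comp Φ _ _ _ _ _ (ei_eh Φ Ψ e _) h α β
  map_d m n α := cj_δ Φ _ _ m n α

theorem hom_ofLin [Φ.Linear ℂ] {K L : CCx T} (f : K ⟶ L) :
    (ofLin Φ Ψ e).hom (hm f) = hm (Ψ.map f) := by
  apply Cochain.ofHom_injective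
  rw [DGFun.ofHom_hom]
  change cj Φ (eh Φ Ψ e K) (ei Φ Ψ e L) 0 _ = _
  unfold cj
  rw [Cochain.map_ofHom, ← Cochain.ofHom_comp, ← Cochain.ofHom_comp]
  rw [← Category.assoc, eh_nat, Category.assoc, eh_ei, Category.comp_id]
  rfl

/-- The functor on the categories of closed morphisms of degree `0`. -/
def fnLin [Φ.Linear ℂ] : (ofLin Φ Ψ e).fn ≅ Ψ :=
  NatIso.ofComponents (fun K => Iso.refl (Ψ.obj K)) (fun {K L} f => by
    have h : (ofLin Φ Ψ e).fn.map f = Ψ.map f := hm_inj (hom_ofLin Φ Ψ e f)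
    rw [h]
    exact (Category.comp_id _).trans (Category.id_comp _).symm)

end Lin

/-- A quasi-equivalence defined by a linear functor is a quasi-equivalence of DG categories. -/
theorem dgs_of_step (h : DGStep T T') : DGS T T' := by
  obtain ⟨Φ, hΦ, hl, Ψ, ⟨e⟩, F, hF, ⟨i⟩⟩ := h
  exact ⟨ofLin Φ Ψ e, F, hF, ⟨i ≪≫ Functor.isoWhiskerRight (fnLin Φ Ψ e).symm (Ho.Q T')⟩⟩

theorem dge_of_dgEquivalent (h : DGEquivalent T T') : DGE T T' := by
  induction h with
  | rel P Q h => exact Relation.EqvGen.rel _ _ (dgs_of_step h)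
  | refl P => exact Relation.EqvGen.refl _
  | symm P Q _ ih => exact Relation.EqvGen.symm _ _ ih
  | trans P Q R _ _ ih1 ih2 => exact Relation.EqvGen.trans _ _ _ ih1 ih2

end

end Vale.Agent.P286.H353
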