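import Vale.Agent.P286.H353.DGCat
import Vale.Agent.P286.H527.BrLoc

/-!
# The criterion in terms of DG functors to a middle DG category
-/

namespace Vale.Agent.P286.H353

open CategoryTheory CochainComplex.HomComplex
open Vale.Agent.P286.St

noncomputable section

universe u v

variable {T T' : TSite}

theorem cd_zero (K : Cx T) (X : T.C) (i j : ℤ) : K.d X i j 0 = 0 := by
  have h := TD.hm_add (M := K.tm i) (N := K.tm j) (HomologicalComplex.d K i j) X 0 0
  rw [add_zero] at h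
  exact left_eq_add.1 h

theorem qis_id (K : CCx T) : CCx.qis T (𝟙 K) :=
  fun X i j k _ _ => Br.hiso_id (Cx.d (T := T) (cx K) X i j) (Cx.d (T := T) (cx K) X j k)
    (cd_zero _ _ _ _)

theorem zqis_id (K : Z0 (dgc T)) : zqis T (𝟙 K) := by
  change CCx.qis T ((ofZ T).map (𝟙 K))
  rw [CategoryTheory.Functor.map_id]
  exact qis_id _

theorem zqis_toZ {K L : CCx T} {u : K ⟶ L} (h : CCx.qis T u) : zqis T ((toZ T).map u) := by
  change CCx.qis T ((ofZ T).map ((toZ T).map u))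
  have e : (ofZ T).map ((toZ T).map u) = u := co_inj (ofHom_ofZ ((toZ T).map u))
  rw [e]
  exact h

theorem inv_of_z {D : Type u} [Category.{v} D] {W : MorphismProperty D}
    {F : Z0 (dgc T) ⥤ D} {G : D ⥤ Z0 (dgc T)} (h : Inv (zqis T) W F G) :
    Inv (CCx.qis T) W (toZ T ⋙ F) (G ⋙ ofZ T) where
  pF K L u hu := h.pF _ (zqis_toZ hu)
  pG X Y u hu := h.pG u hu
  un := by
    have h1 : Zig (CCx.qis T) (toZ T ⋙ (F ⋙ G) ⋙ ofZ T) (toZ T ⋙ 𝟭 _ ⋙ ofZ T) :=
      (h.un.right (W' := CCx.qis T) (ofZ T) (fun _ _ _ hu => hu)).left (toZ T)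
    refine Zig.trans h1 (NatW.zig ⟨(toZof T).hom, fun K => ?_⟩)
    exact qis_id K
  co := by
    refine Zig.trans (NatW.zig ⟨Functor.whiskerLeft G (Functor.whiskerRight (ofZto T).hom F),
      fun X => ?_⟩) h.co
    exact h.pF _ (zqis_id (G.obj X))

/-- The criterion for quasi-equivalences of DG categories. -/
theorem dgs_of_dgf {D : DGC.{u, v}} {W : MorphismProperty (Z0 D)}
    {X₁ : DGF (dgc T) D} {Y₁ : DGF D (dgc T)} {X₂ : DGF (dgc T') D} {Y₂ : DGF D (dgc T')}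
    (h₁ : Inv (zqis T) W X₁.z0 Y₁.z0) (h₂ : Inv (zqis T') W X₂.z0 Y₂.z0) : DGS T T' :=
  ⟨(X₁.comp Y₂).toDGFun, isQE_of_middle (inv_of_z h₁) (inv_of_z h₂) (X₁.comp Y₂).fnIso⟩

end

end Vale.Agent.P286.H353
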