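import Vale.Agent.P286.H353.GtC

/-!
# The equivalence with a middle DG category, assembled from its parts
-/

namespace Vale.Agent.P286.H353

open CategoryTheory CochainComplex.HomComplex
open Vale.Agent.P286.St Vale.Agent.P286.H847

noncomputable section

universe u v u₁ v₁ u₂ v₂

/-- There is a natural transformation with values in `W`, in one of the two directions. -/
def NatZ {C : Type u₁} {D : Type u₂} [Category.{v₁} C] [Category.{v₂} D] (W : MorphismProperty D)
    (F G : C ⥤ D) : Prop := NatW W F G ∨ NatW W G F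

theorem NatZ.zig {C : Type u₁} {D : Type u₂} [Category.{v₁} C] [Category.{v₂} D]
    {W : MorphismProperty D} {F G : C ⥤ D} (h : NatZ W F G) : Zig W F G := by
  rcases h with h | h
  · exact h.zig
  · exact h.zig.symm

variable {T T' : TSite} {D : DGC.{u, v}} {W : MorphismProperty (Z0 D)}

theorem natZ_clift {E : Type u₁} [Category.{v₁} E] {F G : E ⥤ Z0 (cxc T)}
    (hF : ∀ X, Cx.Cart (T := T) (zcx (F.obj X))) (hG : ∀ X, Cx.Cart (T := T) (zcx (G.obj X)))
    (h : NatZ (xqis T) F G) : NatZ (zqis T) (clift F hF) (clift G hG) := by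
  rcases h with h | h
  · exact Or.inl (natW_clift hF hG h)
  · exact Or.inr (natW_clift hG hF h)

/-- The cartesian property of an object. -/
theorem cart_cx (K : CCx T) : Cx.Cart (T := T) (cx K) :=
  ObjectProperty.FullSubcategory.property K

/-- The parts of an equivalence between the cartesian complexes on `T` and the objects of `D`:
`X` goes from complexes to `D`, `Y` from `D` to complexes, `M` and `N` are the middle terms of the
two zigzags. -/
structure Parts (T : TSite) (D : DGC.{u, v}) (W : MorphismProperty (Z0 D)) where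
  X : DGF (cxc T) D
  Y : DGF D (cxc T)
  cart : ∀ P : D.Obj, Cx.Cart (T := T) (Y.obj P)
  M : Z0 (dgc T) ⥤ Z0 (cxc T)
  cartM : ∀ K, Cx.Cart (T := T) (zcx (M.obj K))
  N : Z0 D ⥤ Z0 D
  presX : ∀ ⦃K L : Z0 (dgc T)⦄ (a : K ⟶ L), zqis T a → W (((inc T).comp X).z0.map a)
  presY : ∀ ⦃P Q : Z0 D⦄ (a : P ⟶ Q), W a → xqis T (Y.z0.map a)
  zM : NatZ (xqis T) (((inc T).comp X).comp Y).z0 M
  zM' : NatZ (xqis T) (inc T).z0 M
  zN : Zig W (Y.comp X).z0 N
  zN' : Zig W (𝟭 (Z0 D)) N

namespace Parts

/-- The functor from cartesian complexes. -/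
def Xi (p : Parts T D W) : DGF (dgc T) D := (inc T).comp p.X

/-- The functor to cartesian complexes. -/
def Th (p : Parts T D W) : DGF D (dgc T) := toC p.Y p.cart

theorem inv (p : Parts T D W) : Inv (zqis T) W p.Xi.z0 p.Th.z0 where
  pF := p.presX
  pG := p.presY
  un := by
    have h1 := natZ_clift (T := T) (F := (((inc T).comp p.X).comp p.Y).z0) (G := p.M)
      (fun K => p.cart _) p.cartM p.zM
    have h2 := natZ_clift (T := T) (F := (inc T).z0) (G := p.M)
      (fun K => cart_cx (zc K)) p.cartM p.zM'
    exact h1.zig.trans h2.zig.symm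
  co := p.zN.trans p.zN'.symm

end Parts

/-- The theorem: two test categories with such an equivalence are DG equivalent. -/
theorem dgs_of_parts (p : Parts T D W) (q : Parts T' D W) : DGS T T' := dgs_of_dgf p.inv q.inv

end

end Vale.Agent.P286.H353
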